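import Mathlib

/-!
Decision trees on the subsets of a finite set and comparison of a positive weight, whose ratio at a
flip of one element is bounded, with the uniform weight.
-/

namespace Vale.Agent.P167.R3.H713

open Finset

variable {α : Type*} [DecidableEq α]

/-- The function `g` on the subsets of `E` is computed by a decision tree of depth at most `m`: it
is constant, or one asks whether some element `e` of `E` belongs to the set, and both restrictions
are computed by decision trees of depth at most `m - 1`. -/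
inductive Dep : ℕ → Finset α → (Finset α → ℝ) → Prop
  | const {m : ℕ} {E : Finset α} {g : Finset α → ℝ} (h : ∀ A ⊆ E, g A = g ∅) : Dep m E g
  | query {m : ℕ} {E : Finset α} {g : Finset α → ℝ} (e : α) (he : e ∈ E)
      (h0 : Dep m (E.erase e) g) (h1 : Dep m (E.erase e) fun A => g (insert e A)) :
      Dep (m + 1) E g

/-- The weight `u` is positive and changes at a flip of one element at most by the factor `ρ`. -/
def Flip (ρ : ℝ) (E : Finset α) (u : Finset α → ℝ) : Prop :=
  (∀ A ⊆ E, 0 < u A) ∧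
    ∀ A ⊆ E, ∀ e ∈ E, e ∉ A → u (insert e A) ≤ ρ * u A ∧ u A ≤ ρ * u (insert e A)

theorem Dep.comp {m : ℕ} {E : Finset α} {g : Finset α → ℝ} (h : Dep m E g) (φ : ℝ → ℝ) :
    Dep m E fun A => φ (g A) := by
  induction h with
  | const h => exact .const fun A hA => by rw [h A hA]
  | query e he _ _ ih0 ih1 => exact .query e he ih0 ih1

theorem Dep.mono {m m' : ℕ} {E : Finset α} {g : Finset α → ℝ} (h : Dep m E g) (hm : m ≤ m') :
    Dep m' E g := by
  induction h generalizing m' with
  | const h => exact .const h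
  | query e he _ _ ih0 ih1 =>
    obtain ⟨m'', rfl⟩ := Nat.exists_eq_add_of_le' hm
    rw [← Nat.add_assoc]
    exact .query e he (ih0 (by omega)) (ih1 (by omega))

theorem Dep.congr {m : ℕ} {E : Finset α} {g g' : Finset α → ℝ} (h : Dep m E g)
    (hg : ∀ A ⊆ E, g A = g' A) : Dep m E g' := by
  induction h generalizing g' with
  | const h => exact .const fun A hA => by rw [← hg A hA, h A hA, hg ∅ (empty_subset _)]
  | query e he _ _ ih0 ih1 =>
    refine .query e he (ih0 fun A hA => hg A (hA.trans (erase_subset _ _)))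
      (ih1 fun A hA => hg _ ?_)
    exact insert_subset he (hA.trans (erase_subset _ _))

/-- Every function is computed by a decision tree whose depth is the number of elements. -/
theorem Dep.all (E : Finset α) : ∀ g : Finset α → ℝ, Dep E.card E g := by
  induction E using Finset.induction_on with
  | empty =>
    intro g
    exact .const fun A hA => by rw [subset_empty.1 hA]
  | insert e E he ih =>
    intro g
    rw [card_insert_of_notMem he]
    refine .query e (mem_insert_self _ _) ?_ ?_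
    · rw [erase_insert he]
      exact ih g
    · rw [erase_insert he]
      exact ih _

/-- A function which depends only on which elements of `R` belong to the set. -/
theorem dep_local (R : Finset α) : ∀ (E : Finset α) (g : Finset α → ℝ),
    (∀ A ⊆ E, ∀ B ⊆ E, A ∩ R = B ∩ R → g A = g B) → Dep R.card E g := by
  induction R using Finset.induction_on with
  | empty =>
    intro E g h
    exact .const fun A hA => h A hA ∅ (empty_subset _) (by simp)
  | insert e R he ih =>
    intro E g h
    rw [card_insert_of_notMem he]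
    by_cases heE : e ∈ E
    · refine .query e heE (ih _ _ fun A hA B hB hAB => ?_) (ih _ _ fun A hA B hB hAB => ?_)
      · have h1 : ∀ A ⊆ E.erase e, A ∩ insert e R = A ∩ R := fun A hA =>
          inter_insert_of_notMem fun h2 => notMem_erase _ _ (hA h2)
        refine h A (hA.trans (erase_subset _ _)) B (hB.trans (erase_subset _ _)) ?_
        rw [h1 A hA, h1 B hB, hAB]
      · refine h _ (insert_subset heE (hA.trans (erase_subset _ _))) _
          (insert_subset heE (hB.trans (erase_subset _ _))) ?_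
        rw [← insert_inter_distrib, ← insert_inter_distrib, hAB]
    · refine (ih E g fun A hA B hB hAB => h A hA B hB ?_).mono (Nat.le_succ _)
      rw [inter_insert_of_notMem fun h2 => heE (hA h2), inter_insert_of_notMem fun h2 =>
        heE (hB h2), hAB]

theorem Flip.erase {ρ : ℝ} {E : Finset α} {u : Finset α → ℝ} (h : Flip ρ E u) (e : α) :
    Flip ρ (E.erase e) u :=
  ⟨fun A hA => h.1 A (hA.trans (erase_subset _ _)), fun A hA f hf hfA =>
    h.2 A (hA.trans (erase_subset _ _)) f (mem_of_mem_erase hf) hfA⟩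

theorem Flip.insert {ρ : ℝ} {E : Finset α} {u : Finset α → ℝ} (h : Flip ρ E u) {e : α}
    (he : e ∈ E) : Flip ρ (E.erase e) fun A => u (Insert.insert e A) := by
  refine ⟨fun A hA => h.1 _ (insert_subset he (hA.trans (erase_subset _ _))),
    fun A hA f hf hfA => ?_⟩
  have h1 := h.2 (Insert.insert e A) (insert_subset he (hA.trans (erase_subset _ _))) f
    (mem_of_mem_erase hf) (by
      rw [mem_insert]
      rintro (h2 | h2)
      · exact (ne_of_mem_erase hf) h2
      · exact hfA h2)
  rw [Finset.insert_comm] at h1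
  exact h1

/-- Two-point inequality. -/
theorem two_point {ρ a b : ℝ} (ha : 0 < a) (hb : 0 < b) (hab : a ≤ ρ * b) (hba : b ≤ ρ * a) :
    a ^ 2 + b ^ 2 ≤ (1 + ((ρ - 1) / (ρ + 1)) ^ 2) * ((a + b) ^ 2 / 2) := by
  have hρ : 0 < ρ := by
    by_contra h
    have h := not_lt.1 h
    nlinarith
  have h1 : |a - b| * (ρ + 1) ≤ (ρ - 1) * (a + b) := by
    rcases le_total a b with h | h
    · rw [abs_of_nonpos (by linarith)]
      nlinarith
    · rw [abs_of_nonneg (by linarith)]
      nlinarith
  have h2 : |a - b| ≤ (ρ - 1) / (ρ + 1) * (a + b) := by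
    rw [div_mul_eq_mul_div, le_div_iff₀ (by linarith)]
    exact h1
  have h3 : (a - b) ^ 2 ≤ ((ρ - 1) / (ρ + 1)) ^ 2 * (a + b) ^ 2 := by
    rw [← sq_abs (a - b), ← mul_pow]
    exact pow_le_pow_left₀ (abs_nonneg _) h2 2
  nlinarith

/-- Cauchy-Schwarz for two terms. -/
theorem cs_two {P a b x y s t : ℝ} (hP : 0 ≤ P) (hs : 0 ≤ s) (ht : 0 ≤ t)
    (hx : x ^ 2 ≤ P * a ^ 2 * s) (hy : y ^ 2 ≤ P * b ^ 2 * t) :
    (x + y) ^ 2 ≤ P * (a ^ 2 + b ^ 2) * (s + t) := by
  have h1 : (x * y) ^ 2 ≤ (P * (a ^ 2 * t + b ^ 2 * s) / 2) ^ 2 := by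
    have h2 : (x * y) ^ 2 ≤ (P * a ^ 2 * s) * (P * b ^ 2 * t) := by
      rw [mul_pow]
      exact mul_le_mul hx hy (sq_nonneg _) (by positivity)
    have h3 : 0 ≤ P ^ 2 * (a ^ 2 * t - b ^ 2 * s) ^ 2 := by positivity
    nlinarith
  have h4 : x * y ≤ P * (a ^ 2 * t + b ^ 2 * s) / 2 :=
    le_trans (le_abs_self _) (abs_le_of_sq_le_sq h1 (by positivity))
  nlinarith

theorem alg (P K a b s t : ℝ) {c : ℝ} (hc : c ≠ 0) :
    P * (K * ((a + b) ^ 2 / 2)) * (s / c + t / c) = P * K * (a + b) ^ 2 * ((s + t) / (2 * c)) := by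
  field_simp

/-- The second moment bound, tested with a function computed by a decision tree. -/
theorem Dep.bound {m : ℕ} {E : Finset α} {g : Finset α → ℝ} (h : Dep m E g) {ρ : ℝ} (hρ : 1 ≤ ρ)
    {u : Finset α → ℝ} (hu : Flip ρ E u) :
    (∑ A ∈ E.powerset, u A * g A) ^ 2 ≤ (1 + ((ρ - 1) / (ρ + 1)) ^ 2) ^ m *
      (∑ A ∈ E.powerset, u A) ^ 2 * ((∑ A ∈ E.powerset, g A ^ 2) / 2 ^ E.card) := by
  have hK : 1 ≤ 1 + ((ρ - 1) / (ρ + 1)) ^ 2 := by
    have := sq_nonneg ((ρ - 1) / (ρ + 1))
    linarith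
  induction h generalizing u with
  | @const m E g h =>
    have h1 : ∑ A ∈ E.powerset, u A * g A = (∑ A ∈ E.powerset, u A) * g ∅ := by
      rw [sum_mul]
      exact sum_congr rfl fun A hA => by rw [h A (mem_powerset.1 hA)]
    have h2 : (∑ A ∈ E.powerset, g A ^ 2) / 2 ^ E.card = g ∅ ^ 2 := by
      rw [sum_congr rfl fun A hA => by rw [h A (mem_powerset.1 hA)], sum_const, card_powerset,
        nsmul_eq_mul]
      push_cast
      field_simp
    rw [h1, h2, mul_pow]
    have h3 : 1 ≤ (1 + ((ρ - 1) / (ρ + 1)) ^ 2) ^ m := one_le_pow₀ hK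
    have h4 : 0 ≤ (∑ A ∈ E.powerset, u A) ^ 2 * g ∅ ^ 2 := by positivity
    nlinarith
  | @query m E g e he _ _ ih0 ih1 =>
    have hs : ∀ f : Finset α → ℝ, ∑ A ∈ E.powerset, f A =
        ∑ A ∈ (E.erase e).powerset, f A + ∑ A ∈ (E.erase e).powerset, f (Insert.insert e A) := by
      intro f
      conv_lhs => rw [← insert_erase he]
      exact sum_powerset_insert (notMem_erase _ _) _
    have hc : (2 : ℝ) ^ E.card = 2 * 2 ^ (E.erase e).card := by
      rw [← card_erase_add_one he, pow_succ, mul_comm]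
    have i0 := ih0 (hu.erase e)
    have i1 := ih1 (hu.insert he)
    set P : ℝ := (1 + ((ρ - 1) / (ρ + 1)) ^ 2) ^ m with hP
    have hP0 : 0 ≤ P := by positivity
    rw [hs, hs, hs]
    set x := ∑ A ∈ (E.erase e).powerset, u A * g A
    set y := ∑ A ∈ (E.erase e).powerset, u (Insert.insert e A) * g (Insert.insert e A)
    set a := ∑ A ∈ (E.erase e).powerset, u A with ha
    set b := ∑ A ∈ (E.erase e).powerset, u (Insert.insert e A) with hb
    set s := ∑ A ∈ (E.erase e).powerset, g A ^ 2
    set t := ∑ A ∈ (E.erase e).powerset, g (Insert.insert e A) ^ 2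
    have hs0 : 0 ≤ s := sum_nonneg fun _ _ => sq_nonneg _
    have ht0 : 0 ≤ t := sum_nonneg fun _ _ => sq_nonneg _
    have hne : (E.erase e).powerset.Nonempty := ⟨∅, empty_mem_powerset _⟩
    have ha0 : 0 < a := sum_pos (fun A hA => (hu.erase e).1 A (mem_powerset.1 hA)) hne
    have hb0 : 0 < b := sum_pos (fun A hA => (hu.insert he).1 A (mem_powerset.1 hA)) hne
    have hnot : ∀ A ∈ (E.erase e).powerset, e ∉ A := fun A hA h =>
      notMem_erase e E (mem_powerset.1 hA h)
    have hsub : ∀ A ∈ (E.erase e).powerset, A ⊆ E := fun A hA =>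
      (mem_powerset.1 hA).trans (erase_subset _ _)
    have hab : a ≤ ρ * b := by
      rw [ha, hb, mul_sum]
      exact sum_le_sum fun A hA => (hu.2 A (hsub A hA) e he (hnot A hA)).2
    have hba : b ≤ ρ * a := by
      rw [ha, hb, mul_sum]
      exact sum_le_sum fun A hA => (hu.2 A (hsub A hA) e he (hnot A hA)).1
    have c := cs_two (P := P) (a := a) (b := b) (x := x) (y := y)
      (s := s / 2 ^ (E.erase e).card) (t := t / 2 ^ (E.erase e).card) hP0 (by positivity)
      (by positivity) i0 i1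
    have tp := two_point ha0 hb0 hab hba
    have hst : 0 ≤ s / 2 ^ (E.erase e).card + t / 2 ^ (E.erase e).card := by positivity
    calc (x + y) ^ 2 ≤ P * (a ^ 2 + b ^ 2) *
          (s / 2 ^ (E.erase e).card + t / 2 ^ (E.erase e).card) := c
      _ ≤ P * ((1 + ((ρ - 1) / (ρ + 1)) ^ 2) * ((a + b) ^ 2 / 2)) *
          (s / 2 ^ (E.erase e).card + t / 2 ^ (E.erase e).card) := by gcongr
      _ = (1 + ((ρ - 1) / (ρ + 1)) ^ 2) ^ (m + 1) * (a + b) ^ 2 * ((s + t) / 2 ^ E.card) := by
          rw [hc, pow_succ]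
          exact alg P _ a b s t (by positivity)

/-- The centered form. -/
theorem Dep.centered {m : ℕ} {E : Finset α} {g : Finset α → ℝ} (h : Dep m E g) {ρ : ℝ}
    (hρ : 1 ≤ ρ) {u : Finset α → ℝ} (hu : Flip ρ E u) :
    ((∑ A ∈ E.powerset, u A * g A) / (∑ A ∈ E.powerset, u A) -
        (∑ A ∈ E.powerset, g A) / 2 ^ E.card) ^ 2 ≤
      ((1 + ((ρ - 1) / (ρ + 1)) ^ 2) ^ m - 1) *
        ((∑ A ∈ E.powerset, g A ^ 2) / 2 ^ E.card -
          ((∑ A ∈ E.powerset, g A) / 2 ^ E.card) ^ 2) := by
  set U := ∑ A ∈ E.powerset, u A with hU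
  set W := (∑ A ∈ E.powerset, g A) / 2 ^ E.card with hW
  set G := (∑ A ∈ E.powerset, g A ^ 2) / 2 ^ E.card with hG
  set X := ∑ A ∈ E.powerset, u A * g A with hX
  set C := (1 + ((ρ - 1) / (ρ + 1)) ^ 2) ^ m with hC
  have hU0 : 0 < U := sum_pos (fun A hA => hu.1 A (mem_powerset.1 hA)) ⟨∅, empty_mem_powerset _⟩
  have hC1 : 1 ≤ C := one_le_pow₀ (by
    have := sq_nonneg ((ρ - 1) / (ρ + 1))
    linarith)
  have key : ∀ z : ℝ, (X / U + z) ^ 2 ≤ C * (G + 2 * z * W + z ^ 2) := by
    intro z
    have h1 := (h.comp fun y => y + z).bound hρ hu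
    have h2 : ∑ A ∈ E.powerset, u A * (g A + z) = X + z * U := by
      rw [hX, hU, mul_sum, ← sum_add_distrib]
      exact sum_congr rfl fun A _ => by ring
    have h3 : (∑ A ∈ E.powerset, (g A + z) ^ 2) / 2 ^ E.card = G + 2 * z * W + z ^ 2 := by
      have h4 : ∑ A ∈ E.powerset, (g A + z) ^ 2 =
          ∑ A ∈ E.powerset, g A ^ 2 + 2 * z * ∑ A ∈ E.powerset, g A + z ^ 2 * 2 ^ E.card := by
        have h5 : z ^ 2 * 2 ^ E.card = ∑ A ∈ E.powerset, z ^ 2 := by
          rw [sum_const, card_powerset, nsmul_eq_mul]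
          push_cast
          ring
        rw [h5, mul_sum, ← sum_add_distrib, ← sum_add_distrib]
        exact sum_congr rfl fun A _ => by ring
      rw [h4, hG, hW]
      field_simp
    rw [h2, h3] at h1
    have h6 : (X + z * U) ^ 2 = (X / U + z) ^ 2 * U ^ 2 := by
      field_simp
    rw [h6] at h1
    have h7 : (X / U + z) ^ 2 * U ^ 2 ≤ (C * (G + 2 * z * W + z ^ 2)) * U ^ 2 := by
      linarith [h1]
    exact le_of_mul_le_mul_right h7 (by positivity)
  rcases eq_or_lt_of_le hC1 with h1 | h1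
  · have h2 : X / U = W := by
      by_contra hne
      have h3 : 0 < (X / U - W) ^ 2 := by
        have : X / U - W ≠ 0 := sub_ne_zero.2 hne
        positivity
      have h4 := key ((G - (X / U) ^ 2 + 1) / (2 * (X / U - W)))
      rw [← h1] at h4
      have h5 : 2 * (X / U - W) * ((G - (X / U) ^ 2 + 1) / (2 * (X / U - W))) =
          G - (X / U) ^ 2 + 1 :=
        mul_div_cancel₀ _ (mul_ne_zero two_ne_zero (sub_ne_zero.2 hne))
      nlinarith
    rw [h2, ← h1]
    simp
  · have h4 := key ((X / U - W) / (C - 1) - W)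
    have h5 : 0 < C - 1 := by linarith
    have h6 : (X / U + ((X / U - W) / (C - 1) - W)) = (X / U - W) * C / (C - 1) := by
      field_simp
      ring
    have h7 : G + 2 * ((X / U - W) / (C - 1) - W) * W + ((X / U - W) / (C - 1) - W) ^ 2 =
        (G - W ^ 2) + (X / U - W) ^ 2 / (C - 1) ^ 2 := by
      field_simp
      ring
    rw [h6, h7] at h4
    have h8 : ((X / U - W) * C / (C - 1)) ^ 2 = (X / U - W) ^ 2 * C ^ 2 / (C - 1) ^ 2 := by
      rw [div_pow, mul_pow]
    rw [h8] at h4
    have h9 : (X / U - W) ^ 2 * C ^ 2 / (C - 1) ^ 2 - C * ((X / U - W) ^ 2 / (C - 1) ^ 2) =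
        C * ((X / U - W) ^ 2 / (C - 1)) := by
      field_simp
    have h10 : C * ((X / U - W) ^ 2 / (C - 1)) ≤ C * (G - W ^ 2) := by
      rw [mul_add] at h4
      linarith
    have h11 : (X / U - W) ^ 2 / (C - 1) ≤ G - W ^ 2 := le_of_mul_le_mul_left h10 (by linarith)
    rw [div_le_iff₀ h5] at h11
    linarith

end Vale.Agent.P167.R3.H713
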