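import Vale.Agent.P167.Final.Question
import Vale.Agent.P167.R3.H713.Tree

/-!
The weight of the random-cluster measure changes at a flip of one edge by the factor `√q` or
`1 / √q` at the self-dual point.
-/

namespace Vale.Agent.P167.R3.H713

open Finset Vale.Agent.P167.Final

theorem card_cc {V : Type*} [Finite V] {G G' : SimpleGraph V} (x y : V) (hle : G ≤ G')
    (h : ∀ u v, G'.Adj u v → G.Adj u v ∨ (u = x ∧ v = y) ∨ (u = y ∧ v = x)) :
    Nat.card G'.ConnectedComponent ≤ Nat.card G.ConnectedComponent ∧
      Nat.card G.ConnectedComponent ≤ Nat.card G'.ConnectedComponent + 1 := by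
  classical
  have : Finite G.ConnectedComponent := Quot.finite _
  have : Finite G'.ConnectedComponent := Quot.finite _
  constructor
  · refine Nat.card_le_card_of_surjective
      (SimpleGraph.ConnectedComponent.map (SimpleGraph.Hom.ofLE hle)) ?_
    intro c
    induction c using SimpleGraph.ConnectedComponent.ind with
    | _ v => exact ⟨G.connectedComponentMk v, rfl⟩
  · set f : V → G.ConnectedComponent := fun v =>
      if G.connectedComponentMk v = G.connectedComponentMk y then G.connectedComponentMk x
      else G.connectedComponentMk v with hf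
    have hadj : ∀ u v, G'.Adj u v → f u = f v := by
      intro u v huv
      rcases h u v huv with h1 | ⟨rfl, rfl⟩ | ⟨rfl, rfl⟩
      · have h2 : G.connectedComponentMk u = G.connectedComponentMk v :=
          SimpleGraph.ConnectedComponent.sound h1.reachable
        simp only [hf, h2]
      · simp [hf]
      · simp [hf]
    have hwalk : ∀ u v, G'.Walk u v → f u = f v := by
      intro u v w
      induction w with
      | nil => rfl
      | cons h1 _ ih => exact (hadj _ _ h1).trans ih
    set F : G'.ConnectedComponent → G.ConnectedComponent :=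
      SimpleGraph.ConnectedComponent.lift f (fun v w p _ => hwalk v w p) with hF
    have hs : Function.Surjective
        (fun z : Option G'.ConnectedComponent => z.elim (G.connectedComponentMk y) F) := by
      intro c
      induction c using SimpleGraph.ConnectedComponent.ind with
      | _ v =>
        by_cases hv : G.connectedComponentMk v = G.connectedComponentMk y
        · exact ⟨none, hv.symm⟩
        · refine ⟨some (G'.connectedComponentMk v), ?_⟩
          change f v = _
          simp only [hf, if_neg hv]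
    have h1 := Nat.card_le_card_of_surjective _ hs
    rwa [Finite.card_option] at h1

theorem edges_verts {S : Finset (ℤ × ℤ)} {x y : ℤ × ℤ} (h : s(x, y) ∈ edges S) :
    x ∈ verts S ∧ y ∈ verts S := by
  rw [edges, mem_biUnion] at h
  obtain ⟨f, hf, h⟩ := h
  have hv : ∀ z, z ∈ ({f, f + (1, 0), f + (0, 1), f + (1, 1)} : Finset (ℤ × ℤ)) →
      z ∈ verts S := fun z hz => mem_biUnion.2 ⟨f, hf, hz⟩
  simp only [mem_insert, mem_singleton, Sym2.eq_iff] at h hv
  rcases h with (⟨rfl, rfl⟩ | ⟨rfl, rfl⟩) | (⟨rfl, rfl⟩ | ⟨rfl, rfl⟩) |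
    (⟨rfl, rfl⟩ | ⟨rfl, rfl⟩) | (⟨rfl, rfl⟩ | ⟨rfl, rfl⟩) <;>
  exact ⟨hv _ (by tauto), hv _ (by tauto)⟩

theorem wiredOpen_mono {n : ℕ} (p : ZMod n → ℤ × ℤ) (k : ℕ) {A B : Finset (Sym2 (ℤ × ℤ))}
    (h : A ⊆ B) : wiredOpen p k A ⊆ wiredOpen p k B := by
  rintro e (he | he)
  · exact Or.inl (h he)
  · exact Or.inr he

theorem clusters_insert {n : ℕ} (p : ZMod n → ℤ × ℤ) (k : ℕ) {S : Finset (ℤ × ℤ)}
    {A : Finset (Sym2 (ℤ × ℤ))} {e : Sym2 (ℤ × ℤ)} (he : e ∈ edges S) :
    clusters p k S (insert e A) = clusters p k S A ∨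
      clusters p k S A = clusters p k S (insert e A) + 1 := by
  induction e using Sym2.ind with
  | _ x y =>
    obtain ⟨hx, hy⟩ := edges_verts he
    have h1 := card_cc (V := (verts S : Set (ℤ × ℤ)))
      (G := (SimpleGraph.fromEdgeSet (wiredOpen p k A)).induce (verts S : Set (ℤ × ℤ)))
      (G' := (SimpleGraph.fromEdgeSet (wiredOpen p k (insert s(x, y) A))).induce
        (verts S : Set (ℤ × ℤ))) ⟨x, hx⟩ ⟨y, hy⟩ ?_ ?_
    · rw [clusters, clusters]
      omega
    · intro u v huv
      simp only [SimpleGraph.comap_adj, Function.Embedding.subtype_apply,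
        SimpleGraph.fromEdgeSet_adj] at huv ⊢
      exact ⟨wiredOpen_mono p k (subset_insert _ _) huv.1, huv.2⟩
    · intro u v huv
      simp only [SimpleGraph.comap_adj, Function.Embedding.subtype_apply,
        SimpleGraph.fromEdgeSet_adj] at huv ⊢
      obtain ⟨h2, h3⟩ := huv
      rcases h2 with h2 | h2
      · rcases mem_insert.1 h2 with h2 | h2
        · right
          rcases Sym2.eq_iff.1 h2 with ⟨h4, h5⟩ | ⟨h4, h5⟩
          · exact Or.inl ⟨Subtype.ext h4, Subtype.ext h5⟩
          · exact Or.inr ⟨Subtype.ext h4, Subtype.ext h5⟩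
        · exact Or.inl ⟨Or.inl h2, h3⟩
      · exact Or.inl ⟨Or.inr h2, h3⟩

/-- The factor. -/
noncomputable def fac (q : ℝ) : ℝ := max (√q) (1 / √q)

theorem one_le_fac {q : ℝ} (hq : 0 < q) : 1 ≤ fac q := by
  have h : 0 < √q := Real.sqrt_pos.2 hq
  rcases le_total 1 (√q) with h1 | h1
  · exact h1.trans (le_max_left _ _)
  · exact (one_le_one_div h h1).trans (le_max_right _ _)

theorem fac_sq {q : ℝ} (hq : 0 < q) :
    ((fac q - 1) / (fac q + 1)) ^ 2 = ((√q - 1) / (√q + 1)) ^ 2 := by
  have h : 0 < √q := Real.sqrt_pos.2 hq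
  rcases max_choice (√q) (1 / √q) with h1 | h1
  · rw [fac, h1]
  · rw [fac, h1]
    have h2 : (1 / √q - 1) / (1 / √q + 1) = -((√q - 1) / (√q + 1)) := by
      field_simp
      ring
    rw [h2, neg_sq]

theorem weight_flip {q : ℝ} (hq : 0 < q) {n : ℕ} (p : ZMod n → ℤ × ℤ) (k : ℕ)
    (S : Finset (ℤ × ℤ)) : Flip (fac q) (edges S) (weight q p k S) := by
  have h : 0 < √q := Real.sqrt_pos.2 hq
  have hs : 0 < selfDual q := by rw [selfDual]; positivity
  have hs1 : 1 - selfDual q = 1 / (1 + √q) := by
    rw [selfDual]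
    field_simp
    ring
  have hs2 : selfDual q = √q * (1 - selfDual q) := by
    rw [hs1, selfDual]
    ring
  have hs3 : 0 < 1 - selfDual q := by rw [hs1]; positivity
  have hpos : ∀ A, 0 < weight q p k S A := fun A => by rw [weight]; positivity
  refine ⟨fun A _ => hpos A, fun A hA e he heA => ?_⟩
  have hcard : (edges S).card - A.card = (edges S).card - (insert e A).card + 1 := by
    have h1 : (insert e A).card ≤ (edges S).card := card_le_card (insert_subset he hA)
    rw [card_insert_of_notMem heA] at h1 ⊢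
    omega
  have hw : ∀ c : ℕ, selfDual q ^ (insert e A).card *
      (1 - selfDual q) ^ ((edges S).card - (insert e A).card) * q ^ c =
      √q * (selfDual q ^ A.card * (1 - selfDual q) ^ ((edges S).card - A.card) * q ^ c) := by
    intro c
    rw [hcard, card_insert_of_notMem heA, pow_succ, pow_succ]
    conv_lhs => rw [show selfDual q ^ A.card * selfDual q =
      selfDual q ^ A.card * (√q * (1 - selfDual q)) by rw [← hs2]]
    ring
  have hqq : √q * √q = q := Real.mul_self_sqrt hq.le
  have key : weight q p k S (insert e A) = √q * weight q p k S A ∨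
      weight q p k S (insert e A) = 1 / √q * weight q p k S A := by
    rcases clusters_insert p k (A := A) he with h1 | h1
    · left
      rw [weight, weight, h1, hw]
    · right
      rw [weight, weight, hw, h1, pow_succ]
      set y := selfDual q ^ A.card * (1 - selfDual q) ^ ((edges S).card - A.card)
      have h2 : √q * (y * q ^ clusters p k S (insert e A)) =
          1 / √q * (y * (q ^ clusters p k S (insert e A) * (√q * √q))) := by
        field_simp
      rw [h2, hqq]
  have f1 : √q ≤ fac q := le_max_left _ _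
  have f2 : 1 / √q ≤ fac q := le_max_right _ _
  have hA0 := hpos A
  have hB0 := hpos (insert e A)
  rcases key with h1 | h1
  · refine ⟨by rw [h1]; exact mul_le_mul_of_nonneg_right f1 hA0.le, ?_⟩
    have h2 : weight q p k S A = 1 / √q * weight q p k S (insert e A) := by
      rw [h1]
      field_simp
    rw [h2]
    have h3 : fac q * weight q p k S (insert e A) ≥ 1 / √q * weight q p k S (insert e A) :=
      mul_le_mul_of_nonneg_right f2 hB0.le
    exact h3
  · refine ⟨by rw [h1]; exact mul_le_mul_of_nonneg_right f2 hA0.le, ?_⟩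
    have h2 : weight q p k S A = √q * weight q p k S (insert e A) := by
      rw [h1]
      field_simp
    rw [h2]
    have h3 : fac q * weight q p k S (insert e A) ≥ √q * weight q p k S (insert e A) :=
      mul_le_mul_of_nonneg_right f1 hB0.le
    exact h3

/-- The expectation at `q = 1` is the uniform average. -/
theorem mean_one' {n : ℕ} (p : ZMod n → ℤ × ℤ) (k : ℕ) (S : Finset (ℤ × ℤ))
    (F : Finset (Sym2 (ℤ × ℤ)) → ℝ) :
    mean 1 p k S F = (∑ A ∈ (edges S).powerset, F A) / 2 ^ (edges S).card := by
  rw [mean_one]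
  rfl

/-- Comparison for functions computed by a decision tree. -/
theorem mean_dep {q : ℝ} (hq : 0 < q) {n : ℕ} (p : ZMod n → ℤ × ℤ) (k : ℕ)
    (S : Finset (ℤ × ℤ)) {m : ℕ} {g : Finset (Sym2 (ℤ × ℤ)) → ℝ} (hg : Dep m (edges S) g) :
    (mean q p k S g - mean 1 p k S g) ^ 2 ≤ ((1 + ((√q - 1) / (√q + 1)) ^ 2) ^ m - 1) *
      (mean 1 p k S (fun A => g A ^ 2) - mean 1 p k S g ^ 2) := by
  have h := hg.centered (one_le_fac hq) (weight_flip hq p k S)
  rw [fac_sq hq] at h
  rw [mean_one', mean_one', mean]
  exact h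

end Vale.Agent.P167.R3.H713
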