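import Vale.Agent.P167.R3.H713.Seq

/-!
The number of steps of the interface, and the final statements.
-/

namespace Vale.Agent.P167.R3.H713

open Finset Filter Topology Vale.Agent.P167.Final

/-- `γ` is the interface for the set `A` of open edges, as in `IsInterface`, and it has `m` steps:
it is the polygonal curve through `m + 1` midpoints of edges. (`IsInterface p k δ A γ` says that
there is such an `m`.) -/
def HasSteps {n : ℕ} (p : ZMod n → ℤ × ℤ) (k : ℕ) (δ : ℝ) (A : Finset (Sym2 (ℤ × ℤ)))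
    (γ : C(unitInterval, ℂ)) (m : ℕ) : Prop :=
  ∃ c : ℕ → Medial, 0 < m ∧
    (c 0).1 = p (-1) ∧ p (-1) + dir ((c 0).2 + 1) = p 0 ∧
    (∀ j, c (j + 1) = next (wiredOpen p k A) (c j)) ∧
    (∀ j, 1 ≤ j → ((c j).1 = p k ∧ p k + dir (c j).2 = p ((k : ZMod n) - 1)) → m + 1 ≤ j) ∧
    (c (m + 1)).1 = p k ∧ p k + dir (c (m + 1)).2 = p ((k : ZMod n) - 1) ∧
    ∀ t : unitInterval, γ t = poly (fun j => mid δ (c j)) m t

theorem isInterface_iff {n : ℕ} (p : ZMod n → ℤ × ℤ) (k : ℕ) (δ : ℝ)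
    (A : Finset (Sym2 (ℤ × ℤ))) (γ : C(unitInterval, ℂ)) :
    IsInterface p k δ A γ ↔ ∃ m, HasSteps p k δ A γ m := Iff.rfl

theorem long_iff {n : ℕ} {p : ZMod n → ℤ × ℤ} {k : ℕ} {δ : ℝ} {A : Finset (Sym2 (ℤ × ℤ))}
    {γ : C(unitInterval, ℂ)} {a : ℕ} (h : HasSteps p k δ A γ a) (m : ℕ) :
    Long p k m A ↔ m < a := by
  obtain ⟨c, ha, h1, h2, h3, h4, h5, h6, -⟩ := h
  constructor
  · intro hl
    by_contra hne
    exact hl (c 0) h1 h2 (a + 1) (by omega) (by omega) (by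
      rw [← path_eq h3]
      exact ⟨h5, h6⟩)
  · intro hm c' h1' h2' j hj hj' hex
    rw [start_unique h1' h2' h1 h2, ← path_eq h3] at hex
    have := h4 j hj hex
    omega

theorem probLong_eq {n : ℕ} {p : ZMod n → ℤ × ℤ} {k : ℕ} {S : Finset (ℤ × ℤ)} {δ : ℝ}
    {η : Finset (Sym2 (ℤ × ℤ)) → C(unitInterval, ℂ)} {L : Finset (Sym2 (ℤ × ℤ)) → ℕ}
    (h : ∀ A ⊆ edges S, HasSteps p k δ A (η A) (L A)) (q : ℝ) (m : ℕ) :
    probLong q p k S m = mean q p k S fun A => if m < L A then 1 else 0 := by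
  rw [probLong, mean, mean]
  congr 1
  refine sum_congr rfl fun A hA => ?_
  congr 1
  have hl := long_iff (h A (mem_powerset.1 hA)) m
  by_cases hm : m < L A
  · rw [if_pos (hl.2 hm), if_pos hm]
  · rw [if_neg (fun h => hm (hl.1 h)), if_neg hm]

/-- Markov's inequality for the number of steps. -/
theorem probLong_le {n : ℕ} {p : ZMod n → ℤ × ℤ} {k : ℕ} {S : Finset (ℤ × ℤ)} {δ : ℝ}
    {η : Finset (Sym2 (ℤ × ℤ)) → C(unitInterval, ℂ)} {L : Finset (Sym2 (ℤ × ℤ)) → ℕ}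
    (h : ∀ A ⊆ edges S, HasSteps p k δ A (η A) (L A)) (m : ℕ) :
    probLong 1 p k S m ≤ mean 1 p k S (fun A => (L A : ℝ)) / (m + 1) := by
  have hm : (0 : ℝ) < m + 1 := by positivity
  have h1 : mean 1 p k S (fun A => 1 / ((m : ℝ) + 1) * (L A : ℝ)) =
      mean 1 p k S (fun A => (L A : ℝ)) / (m + 1) := by
    rw [mean_smul]
    ring
  rw [probLong_eq h, ← h1]
  refine mean_mono one_pos p k S fun A _ => ?_
  split_ifs with hl
  · have h2 : ((m : ℝ) + 1) ≤ L A := by exact_mod_cast hl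
    rw [one_div, ← div_eq_inv_mul, le_div_iff₀ hm]
    linarith
  · positivity

theorem one_le_steps {n : ℕ} {p : ZMod n → ℤ × ℤ} {k : ℕ} {S : Finset (ℤ × ℤ)} {δ : ℝ}
    {η : Finset (Sym2 (ℤ × ℤ)) → C(unitInterval, ℂ)} {L : Finset (Sym2 (ℤ × ℤ)) → ℕ}
    (h : ∀ A ⊆ edges S, HasSteps p k δ A (η A) (L A)) :
    1 ≤ mean 1 p k S (fun A => (L A : ℝ)) := by
  have h0 := mean_const one_pos p k S 1
  refine h0.symm.le.trans (mean_mono one_pos p k S fun A hA => ?_)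
  obtain ⟨c, h1, -⟩ := h A hA
  exact_mod_cast h1

/-- Sequences of domains: the window given by the expected number of steps of the interface of
percolation. -/
theorem seq_steps {q : ℕ → ℝ} (hq : ∀ n, 0 < q n) {N k : ℕ → ℕ} {p : ∀ n, ZMod (N n) → ℤ × ℤ}
    {S : ℕ → Finset (ℤ × ℤ)} {δ : ℕ → ℝ} {η : ∀ n, Finset (Sym2 (ℤ × ℤ)) → C(unitInterval, ℂ)}
    {L : ∀ n : ℕ, Finset (Sym2 (ℤ × ℤ)) → ℕ}
    (h : ∀ n, ∀ A ⊆ edges (S n), HasSteps (p n) (k n) (δ n) A (η n A) (L n A))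
    (h1 : Tendsto (fun n => (q n - 1) ^ 2 * mean 1 (p n) (k n) (S n) (fun A => (L n A : ℝ)))
      atTop (𝓝 0)) {F : C(unitInterval, ℂ) → ℝ} {M : ℝ} (hF : ∀ x, |F x| ≤ M) :
    Tendsto (fun n => mean (q n) (p n) (k n) (S n) (fun A => F (η n A)) -
      mean 1 (p n) (k n) (S n) (fun A => F (η n A))) atTop (𝓝 0) := by
  set a : ℕ → ℝ := fun n => mean 1 (p n) (k n) (S n) (fun A => (L n A : ℝ)) with ha
  have ha1 : ∀ n, 1 ≤ a n := fun n => one_le_steps (h n)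
  set y : ℕ → ℝ := fun n => √((q n - 1) ^ 2 * a n) with hy
  have hy0 : Tendsto y atTop (𝓝 0) := by
    have h2 := (Real.continuous_sqrt.tendsto 0).comp h1
    rw [Real.sqrt_zero] at h2
    exact h2
  have hz0 : Tendsto (fun n : ℕ => 1 / ((n : ℝ) + 1)) atTop (𝓝 0) :=
    tendsto_one_div_add_atTop_nhds_zero_nat
  have hyz : Tendsto (fun n => y n + 1 / ((n : ℝ) + 1)) atTop (𝓝 0) := by
    simpa using hy0.add hz0
  have hpos : ∀ n, 0 < y n + 1 / ((n : ℝ) + 1) := fun n => by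
    have := Real.sqrt_nonneg ((q n - 1) ^ 2 * a n)
    positivity
  set m : ℕ → ℕ := fun n => ⌊a n / (y n + 1 / ((n : ℝ) + 1))⌋₊ with hm
  have hlow : ∀ n, a n / (y n + 1 / ((n : ℝ) + 1)) ≤ m n + 1 := fun n =>
    (Nat.lt_floor_add_one _).le
  have hup : ∀ n, (m n : ℝ) ≤ a n / (y n + 1 / ((n : ℝ) + 1)) := fun n =>
    Nat.floor_le (div_nonneg (by linarith [ha1 n]) (hpos n).le)
  refine seq_window hq (m := m) (fun n A hA => ⟨L n A, h n A hA⟩) ?_ ?_ hF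
  · have h2 : Tendsto (fun n => y n + (q n - 1) ^ 2 * a n) atTop (𝓝 0) := by
      simpa using hy0.add h1
    refine squeeze_zero (fun n => by positivity) (fun n => ?_) h2
    have h3 : a n / (y n + 1 / ((n : ℝ) + 1)) * (q n - 1) ^ 2 ≤ y n := by
      rw [div_mul_eq_mul_div, div_le_iff₀ (hpos n)]
      have h4 : y n ^ 2 = (q n - 1) ^ 2 * a n :=
        Real.sq_sqrt (mul_nonneg (sq_nonneg _) (by linarith [ha1 n]))
      have h5 : 0 ≤ y n := Real.sqrt_nonneg _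
      have h6 : 0 ≤ y n * (1 / ((n : ℝ) + 1)) := by positivity
      nlinarith
    have h7 : (m n : ℝ) * (q n - 1) ^ 2 ≤ y n :=
      (mul_le_mul_of_nonneg_right (hup n) (sq_nonneg _)).trans h3
    have h8 : (q n - 1) ^ 2 ≤ (q n - 1) ^ 2 * a n :=
      le_mul_of_one_le_right (sq_nonneg _) (ha1 n)
    linarith
  · refine squeeze_zero (fun n => ?_) (fun n => (probLong_le (h n) (m n)).trans ?_) hyz
    · rw [probLong_eq (h n)]
      have h0 := mean_const one_pos (p n) (k n) (S n) 0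
      refine h0.symm.le.trans (mean_mono one_pos _ _ _ fun A _ => ?_)
      split_ifs <;> norm_num
    · rw [div_le_iff₀ (by positivity)]
      have h9 := hlow n
      rw [div_le_iff₀ (hpos n)] at h9
      linarith

/-- The conclusion of Q1 (see `Question`) at `κ = 6` for the random-cluster measures whose parameter
`q n` depends on `n`, with `(q n - 1) / δ n → 0`; `q n < 1` is allowed. -/
def QuestionNear : Prop :=
  ∃ (Ω : Type) (_ : MeasurableSpace Ω) (P : MeasureTheory.Measure Ω)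
    (_ : MeasureTheory.IsProbabilityMeasure P) (γ : Ω → ℝ → ℂ), IsSLE (kappa 1) P γ ∧
    ∀ Φ : (ℝ × ℝ) ≃ₜ (ℝ × ℝ), (∃ ψ, IsUniformizer Φ ψ) ∧ ∀ ψ, IsUniformizer Φ ψ →
      ∃ G : Ω → C(unitInterval, ℂ),
        (∀ᵐ ω ∂P, G ω 0 = toC (Φ (circ 0)) ∧ G ω 1 = toC (Φ (circ Real.pi)) ∧
          ∀ t : unitInterval, (t : ℝ) < 1 → G ω t = ψ (γ ω (t / (1 - t)))) ∧
        (∀ F, BoundedContinuous F → AEMeasurable (fun ω => F (G ω)) P) ∧
        ∀ (δ : ℕ → ℝ) (N k : ℕ → ℕ) (p : ∀ n, ZMod (N n) → ℤ × ℤ)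
          (S : ℕ → Finset (ℤ × ℤ)), Approx Φ δ N k p S →
          (∀ n, ∀ A ⊆ edges (S n), ∃ η, IsInterface (p n) (k n) (δ n) A η) ∧
          ∀ q : ℕ → ℝ, (∀ n, 0 < q n) → Tendsto (fun n => (q n - 1) / δ n) atTop (𝓝 0) →
          ∀ η : ∀ n, Finset (Sym2 (ℤ × ℤ)) → C(unitInterval, ℂ),
            (∀ n, ∀ A ⊆ edges (S n), IsInterface (p n) (k n) (δ n) A (η n A)) →
            ∀ F, BoundedContinuous F →
              Tendsto (fun n => mean (q n) (p n) (k n) (S n) fun A => F (η n A)) atTop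
                (𝓝 (∫ ω, F (G ω) ∂P))

theorem near_of_question (h : Question 1) : QuestionNear := by
  obtain ⟨Ω, mΩ, P, hP, γ, hγ, h⟩ := h
  refine ⟨Ω, mΩ, P, hP, γ, hγ, fun Φ => ⟨(h Φ).1, fun ψ hψ => ?_⟩⟩
  obtain ⟨G, hG1, hG2, hG3⟩ := (h Φ).2 ψ hψ
  refine ⟨G, hG1, hG2, fun δ N k p S hA => ⟨(hG3 δ N k p S hA).1, ?_⟩⟩
  intro q hq hqδ η hη F hF
  have h1 := (hG3 δ N k p S hA).2 η hη F hF
  obtain ⟨M, hM⟩ := hF.1
  have h2 := seq_mesh hA hq hqδ (F := fun n A => F (η n A)) (fun n A => hM _)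
  have h3 := h2.add h1
  rw [zero_add] at h3
  refine h3.congr fun n => ?_
  exact sub_add_cancel _ _

end Vale.Agent.P167.R3.H713
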