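import Vale.Agent.P167.R3.H713.Clus

/-!
The exploration path of the interface, and the comparison of its first steps under the
random-cluster measure and under critical percolation.
-/

namespace Vale.Agent.P167.R3.H713

open Finset Vale.Agent.P167.Final

/-- The path in the medial lattice which starts with the medial edge `c`, for the set `ω` of open
edges: its medial edge number `j`. -/
noncomputable def path (ω : Set (Sym2 (ℤ × ℤ))) (c : Medial) : ℕ → Medial
  | 0 => c
  | j + 1 => next ω (path ω c j)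

theorem path_shift (ω : Set (Sym2 (ℤ × ℤ))) (c : Medial) (j : ℕ) :
    path ω c (j + 1) = path ω (next ω c) j := by
  induction j with
  | zero => rfl
  | succ j ih =>
    change next ω (path ω c (j + 1)) = next ω (path ω (next ω c) j)
    rw [ih]

/-- `g` depends only on the first `m` steps of the path: it is computed by a decision tree of depth
at most `m`. -/
theorem dep_path (m : ℕ) : ∀ (E : Finset (Sym2 (ℤ × ℤ))) (ω : Set (Sym2 (ℤ × ℤ))) (c : Medial)
    (g : Finset (Sym2 (ℤ × ℤ)) → ℝ),
    (∀ A ⊆ E, ∀ B ⊆ E, (∀ j ≤ m, path (ω ∪ ↑A) c j = path (ω ∪ ↑B) c j) → g A = g B) →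
    Dep m E g := by
  induction m with
  | zero =>
    intro E ω c g h
    refine .const fun A hA => h A hA ∅ (empty_subset _) fun j hj => ?_
    rw [Nat.le_zero.1 hj]
    rfl
  | succ m ih =>
    intro E ω c g h
    by_cases he : ahead c ∈ E ∧ ahead c ∉ ω
    · obtain ⟨he, hω⟩ := he
      refine .query (ahead c) he ?_ ?_
      · refine ih (E.erase (ahead c)) ω (c.1, c.2 + 1) g fun A hA B hB hAB => ?_
        have hn : ∀ A ⊆ E.erase (ahead c), next (ω ∪ ↑A) c = (c.1, c.2 + 1) := by
          intro A hA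
          rw [next, if_neg]
          rintro (h1 | h1)
          · exact hω h1
          · exact notMem_erase _ _ (hA (mem_coe.1 h1))
        refine h A (hA.trans (erase_subset _ _)) B (hB.trans (erase_subset _ _)) fun j hj => ?_
        rcases j with _ | j
        · rfl
        · rw [path_shift, path_shift, hn A hA, hn B hB]
          exact hAB j (by omega)
      · refine ih (E.erase (ahead c)) (insert (ahead c) ω) (c.1 + dir (c.2 + 1), c.2 - 1) _
          fun A hA B hB hAB => ?_
        have hs : ∀ A : Finset (Sym2 (ℤ × ℤ)), ω ∪ ↑(insert (ahead c) A) =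
            insert (ahead c) ω ∪ ↑A := by
          intro A
          rw [coe_insert, Set.union_insert, Set.insert_union]
        have hn : ∀ A : Finset (Sym2 (ℤ × ℤ)), next (insert (ahead c) ω ∪ ↑A) c =
            (c.1 + dir (c.2 + 1), c.2 - 1) := by
          intro A
          rw [next, if_pos]
          exact Or.inl (Set.mem_insert _ _)
        refine h _ (insert_subset he (hA.trans (erase_subset _ _))) _
          (insert_subset he (hB.trans (erase_subset _ _))) fun j hj => ?_
        rw [hs, hs]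
        rcases j with _ | j
        · rfl
        · rw [path_shift, path_shift, hn A, hn B]
          exact hAB j (by omega)
    · have hn : ∀ A ⊆ E, next (ω ∪ ↑A) c = next ω c := by
        intro A hA
        rw [next, next]
        have h1 : ahead c ∈ ω ∪ ↑A ↔ ahead c ∈ ω := by
          constructor
          · rintro (h1 | h1)
            · exact h1
            · by_contra h2
              exact he ⟨hA (mem_coe.1 h1), h2⟩
          · exact fun h1 => Or.inl h1
        by_cases h2 : ahead c ∈ ω
        · rw [if_pos (h1.2 h2), if_pos h2]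
        · rw [if_neg (fun h3 => h2 (h1.1 h3)), if_neg h2]
      refine (ih E ω (next ω c) g fun A hA B hB hAB => ?_).mono (Nat.le_succ m)
      refine h A hA B hB fun j hj => ?_
      rcases j with _ | j
      · rfl
      · rw [path_shift, path_shift, hn A hA, hn B hB]
        exact hAB j (by omega)

/-- The edges of the polygon between two wired vertices. -/
def wiredEdges {n : ℕ} (p : ZMod n → ℤ × ℤ) (k : ℕ) : Set (Sym2 (ℤ × ℤ)) :=
  {e | ∃ i : ℕ, k ≤ i ∧ i + 1 < n ∧ e = s(p i, p (i + 1))}

theorem wiredOpen_eq {n : ℕ} (p : ZMod n → ℤ × ℤ) (k : ℕ) (A : Finset (Sym2 (ℤ × ℤ))) :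
    wiredOpen p k A = wiredEdges p k ∪ ↑A := by
  ext e
  exact or_comm

/-- The first `m` steps: comparison of the random-cluster measure with critical percolation. -/
theorem mean_steps {q : ℝ} (hq : 0 < q) {n : ℕ} (p : ZMod n → ℤ × ℤ) (k : ℕ)
    (S : Finset (ℤ × ℤ)) (m : ℕ) (c : Medial) {g : Finset (Sym2 (ℤ × ℤ)) → ℝ}
    (hg : ∀ A ⊆ edges S, ∀ B ⊆ edges S,
      (∀ j ≤ m, path (wiredOpen p k A) c j = path (wiredOpen p k B) c j) → g A = g B) :
    (mean q p k S g - mean 1 p k S g) ^ 2 ≤ ((1 + ((√q - 1) / (√q + 1)) ^ 2) ^ m - 1) *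
      (mean 1 p k S (fun A => g A ^ 2) - mean 1 p k S g ^ 2) := by
  refine mean_dep hq p k S (dep_path m (edges S) (wiredEdges p k) c g fun A hA B hB hAB => ?_)
  refine hg A hA B hB fun j hj => ?_
  rw [wiredOpen_eq, wiredOpen_eq]
  exact hAB j hj

/-! ### The whole interface -/

/-- The medial edge `c` leaves the domain at the end `b` of the interface. -/
def Exit {n : ℕ} (p : ZMod n → ℤ × ℤ) (k : ℕ) (c : Medial) : Prop :=
  c.1 = p k ∧ p k + dir c.2 = p ((k : ZMod n) - 1)

/-- The exploration path from the start `a` of the interface (the medial edge `c` with the vertex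
`p (n - 1)` on its left which ends at the midpoint of `p (n - 1) p 0`) does not arrive at `b` in
`m + 1` steps: the interface has more than `m` steps. -/
def Long {n : ℕ} (p : ZMod n → ℤ × ℤ) (k : ℕ) (m : ℕ) (A : Finset (Sym2 (ℤ × ℤ))) : Prop :=
  ∀ c : Medial, c.1 = p (-1) → p (-1) + dir (c.2 + 1) = p 0 →
    ∀ j, 1 ≤ j → j ≤ m + 1 → ¬ Exit p k (path (wiredOpen p k A) c j)

theorem path_eq {ω : Set (Sym2 (ℤ × ℤ))} {c : ℕ → Medial} (h : ∀ j, c (j + 1) = next ω (c j))
    (j : ℕ) : c j = path ω (c 0) j := by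
  induction j with
  | zero => rfl
  | succ j ih =>
    rw [h, ih]
    rfl

theorem dir_inj : Function.Injective dir := by
  intro a b
  fin_cases a <;> fin_cases b <;> simp [dir]

theorem start_unique {v w : ℤ × ℤ} {c c' : Medial} (h1 : c.1 = v) (h2 : v + dir (c.2 + 1) = w)
    (h1' : c'.1 = v) (h2' : v + dir (c'.2 + 1) = w) : c = c' := by
  have h3 : dir (c.2 + 1) = dir (c'.2 + 1) := add_left_cancel (h2.trans h2'.symm)
  have h4 : c.2 = c'.2 := add_right_cancel (dir_inj h3)
  exact Prod.ext (h1.trans h1'.symm) h4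

theorem interface_eq {n : ℕ} {p : ZMod n → ℤ × ℤ} {k : ℕ} {δ : ℝ} {m : ℕ}
    {A B : Finset (Sym2 (ℤ × ℤ))} {γ γ' : C(unitInterval, ℂ)} {c : Medial}
    (hc1 : c.1 = p (-1)) (hc2 : p (-1) + dir (c.2 + 1) = p 0)
    (hA : IsInterface p k δ A γ) (hB : IsInterface p k δ B γ')
    (hAB : ∀ j ≤ m + 1, path (wiredOpen p k A) c j = path (wiredOpen p k B) c j)
    (hl : ¬ Long p k m A) : γ = γ' := by
  obtain ⟨a, u, ha, hu1, hu2, hu3, hu4, hu5, hu6, hu7⟩ := hA
  obtain ⟨b, v, hb, hv1, hv2, hv3, hv4, hv5, hv6, hv7⟩ := hB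
  have hcu : u 0 = c := start_unique hu1 hu2 hc1 hc2
  have hcv : v 0 = c := start_unique hv1 hv2 hc1 hc2
  have hu : ∀ j, u j = path (wiredOpen p k A) c j := fun j => by rw [path_eq hu3 j, hcu]
  have hv : ∀ j, v j = path (wiredOpen p k B) c j := fun j => by rw [path_eq hv3 j, hcv]
  have huv : ∀ j ≤ m + 1, u j = v j := fun j hj => by rw [hu, hv, hAB j hj]
  have h1 : ∃ j, 1 ≤ j ∧ j ≤ m + 1 ∧ Exit p k (path (wiredOpen p k A) c j) := by
    by_contra hne
    refine hl fun c' hc1' hc2' j hj hj' => ?_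
    rw [start_unique hc1' hc2' hc1 hc2]
    exact fun h => hne ⟨j, hj, hj', h⟩
  obtain ⟨j, hj, hj', hex⟩ := h1
  have h2 : a + 1 ≤ j := hu4 j hj (by rw [hu]; exact hex)
  have h3 : b + 1 ≤ a + 1 := hv4 (a + 1) (by omega) (by
    rw [← huv (a + 1) (by omega)]
    exact ⟨hu5, hu6⟩)
  have h4 : a + 1 ≤ b + 1 := hu4 (b + 1) (by omega) (by
    rw [huv (b + 1) (by omega)]
    exact ⟨hv5, hv6⟩)
  have h5 : a = b := by omega
  subst h5
  ext t
  rw [hu7, hv7]
  have h6 : ∀ i ≤ a + 1, mid δ (u i) = mid δ (v i) := fun i hi => by rw [huv i (by omega)]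
  have h7 : ⌊(t : ℝ) * a⌋₊ ≤ a := by
    refine Nat.floor_le_of_le ?_
    exact mul_le_of_le_one_left (Nat.cast_nonneg _) t.2.2
  rw [poly, poly]
  rw [h6 _ (by omega), h6 _ (by omega)]

end Vale.Agent.P167.R3.H713
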