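import Vale.Agent.P167.R3.H713.Whole

/-!
Sequences of domains.
-/

namespace Vale.Agent.P167.R3.H713

open Finset Filter Topology Vale.Agent.P167.Final

theorem rate_le {q : ℝ} (hq : 0 < q) (m : ℕ) :
    rate q m ≤ √(Real.exp (m * (q - 1) ^ 2) - 1) := by
  have h : 0 < √q := Real.sqrt_pos.2 hq
  have h1 : ((√q - 1) / (√q + 1)) ^ 2 ≤ (q - 1) ^ 2 := by
    have h2 : q - 1 = (√q - 1) * (√q + 1) := by
      have := Real.mul_self_sqrt hq.le
      linarith
    have h3 : ((√q - 1) / (√q + 1)) ^ 2 ≤ (√q - 1) ^ 2 := by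
      rw [div_pow]
      refine div_le_self (sq_nonneg _) ?_
      nlinarith
    refine h3.trans ?_
    rw [h2, mul_pow]
    refine le_mul_of_one_le_right (sq_nonneg _) ?_
    nlinarith
  refine Real.sqrt_le_sqrt ?_
  have h4 : (1 + ((√q - 1) / (√q + 1)) ^ 2) ^ m ≤ Real.exp (m * (q - 1) ^ 2) := by
    rw [Real.exp_nat_mul]
    refine pow_le_pow_left₀ (by positivity) ?_ m
    have := Real.add_one_le_exp ((q - 1) ^ 2)
    linarith
  linarith

theorem tendsto_rate {q : ℕ → ℝ} (hq : ∀ n, 0 < q n) {m : ℕ → ℕ}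
    (h : Tendsto (fun n => (m n : ℝ) * (q n - 1) ^ 2) atTop (𝓝 0)) :
    Tendsto (fun n => rate (q n) (m n)) atTop (𝓝 0) := by
  refine squeeze_zero (fun n => rate_nonneg _ _) (fun n => rate_le (hq n) (m n)) ?_
  have h1 : Tendsto (fun n => √(Real.exp ((m n : ℝ) * (q n - 1) ^ 2) - 1)) atTop
      (𝓝 √(Real.exp 0 - 1)) :=
    ((Real.continuous_sqrt.comp (Real.continuous_exp.sub continuous_const)).tendsto 0).comp h
  simpa using h1

/-- Sequences of domains: the window given by the length of the interface of percolation. -/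
theorem seq_window {q : ℕ → ℝ} (hq : ∀ n, 0 < q n) {N k : ℕ → ℕ} {p : ∀ n, ZMod (N n) → ℤ × ℤ}
    {S : ℕ → Finset (ℤ × ℤ)} {δ : ℕ → ℝ} {η : ∀ n, Finset (Sym2 (ℤ × ℤ)) → C(unitInterval, ℂ)}
    (hη : ∀ n, ∀ A ⊆ edges (S n), IsInterface (p n) (k n) (δ n) A (η n A)) {m : ℕ → ℕ}
    (h1 : Tendsto (fun n => ((m n : ℝ) + 1) * (q n - 1) ^ 2) atTop (𝓝 0))
    (h2 : Tendsto (fun n => probLong 1 (p n) (k n) (S n) (m n)) atTop (𝓝 0))
    {F : C(unitInterval, ℂ) → ℝ} {M : ℝ} (hF : ∀ x, |F x| ≤ M) :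
    Tendsto (fun n => mean (q n) (p n) (k n) (S n) (fun A => F (η n A)) -
      mean 1 (p n) (k n) (S n) (fun A => F (η n A))) atTop (𝓝 0) := by
  have h3 : Tendsto (fun n => rate (q n) (m n + 1)) atTop (𝓝 0) :=
    tendsto_rate hq (m := fun n => m n + 1) (by simpa using h1)
  refine squeeze_zero_norm (fun n => ?_)
    (a := fun n => 2 * M * (rate (q n) (m n + 1) + probLong 1 (p n) (k n) (S n) (m n))) ?_
  · rw [Real.norm_eq_abs]
    exact whole (hq n) (p n) (k n) (S n) (δ n) (hη n) hF (m n)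
  · simpa using (h3.add h2).const_mul (2 * M)

/-! ### The number of edges -/

theorem box {n : ℕ} {p : ZMod n → ℤ × ℤ} {S : Finset (ℤ × ℤ)} (hS : Encloses p S) {B : ℤ}
    (hB : ∀ i, |(p i).1| ≤ B ∧ |(p i).2| ≤ B) : ∀ f ∈ S, |f.1| ≤ B ∧ |f.2| ≤ B := by
  intro f hf
  have hne : S.Nonempty := ⟨f, hf⟩
  obtain ⟨f1, hf1, hm1⟩ := S.exists_max_image (fun f => f.1) hne
  obtain ⟨f2, hf2, hm2⟩ := S.exists_min_image (fun f => f.1) hne
  obtain ⟨f3, hf3, hm3⟩ := S.exists_max_image (fun f => f.2) hne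
  obtain ⟨f4, hf4, hm4⟩ := S.exists_min_image (fun f => f.2) hne
  have g1 : f1.1 + 1 ≤ B := by
    obtain ⟨i, hi, -⟩ := (hS (f1 + (1, 0)) 1).2 ⟨by
      have : face (f1 + (1, 0)) 1 = f1 := by
        simp [face, Prod.ext_iff]
      rwa [this], fun h => by
      have h2 : face (f1 + (1, 0)) (1 - 1) = f1 + (1, 0) := by
        simp [face, Prod.ext_iff]
      rw [h2] at h
      have := hm1 _ h
      simp at this⟩
    have := (abs_le.1 (hB i).1).2
    rw [hi] at this
    simpa using this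
  have g2 : -B ≤ f2.1 := by
    obtain ⟨i, hi, -⟩ := (hS (f2 + (0, 1)) 3).2 ⟨by
      have : face (f2 + (0, 1)) 3 = f2 := by
        simp [face, Prod.ext_iff]
      rwa [this], fun h => by
      have h2 : face (f2 + (0, 1)) (3 - 1) = f2 + (-1, 0) := by
        simp [face, Prod.ext_iff, show (3 : Fin 4) - 1 = 2 from rfl]
      rw [h2] at h
      have := hm2 _ h
      simp at this⟩
    have := (abs_le.1 (hB i).1).1
    rw [hi] at this
    simpa using this
  have g3 : f3.2 + 1 ≤ B := by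
    obtain ⟨i, hi, -⟩ := (hS (f3 + (1, 1)) 2).2 ⟨by
      have : face (f3 + (1, 1)) 2 = f3 := by
        simp [face, Prod.ext_iff]
      rwa [this], fun h => by
      have h2 : face (f3 + (1, 1)) (2 - 1) = f3 + (0, 1) := by
        simp [face, Prod.ext_iff, show (2 : Fin 4) - 1 = 1 from rfl]
      rw [h2] at h
      have := hm3 _ h
      simp at this⟩
    have := (abs_le.1 (hB i).2).2
    rw [hi] at this
    simpa using this
  have g4 : -B ≤ f4.2 := by
    obtain ⟨i, hi, -⟩ := (hS f4 0).2 ⟨by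
      have : face f4 0 = f4 := by
        simp [face, Prod.ext_iff]
      rwa [this], fun h => by
      have h2 : face f4 (0 - 1) = f4 + (0, -1) := by
        simp [face, Prod.ext_iff, show (0 : Fin 4) - 1 = 3 from rfl]
      rw [h2] at h
      have := hm4 _ h
      simp at this⟩
    have := (abs_le.1 (hB i).2).1
    rw [hi] at this
    simpa using this
  have k1 := hm1 f hf
  have k2 := hm2 f hf
  have k3 := hm3 f hf
  have k4 := hm4 f hf
  exact ⟨abs_le.2 ⟨by omega, by omega⟩, abs_le.2 ⟨by omega, by omega⟩⟩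

theorem card_edges_le (S : Finset (ℤ × ℤ)) : (edges S).card ≤ 4 * S.card := by
  rw [edges, mul_comm]
  refine card_biUnion_le_card_mul _ _ 4 fun f _ => ?_
  exact card_le_four

theorem continuous_toC : Continuous toC := by
  have h : toC = fun z => (z.1 : ℂ) + z.2 * Complex.I := by
    funext z
    exact Complex.mk_eq_add_mul_I _ _
  rw [h]
  fun_prop

theorem continuous_circ : Continuous circ := by
  unfold circ
  fun_prop

/-- The number of edges of the approximations is at most a constant times the inverse square of the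
mesh. -/
theorem card_approx {Φ : (ℝ × ℝ) ≃ₜ (ℝ × ℝ)} {δ : ℕ → ℝ} {N k : ℕ → ℕ}
    {p : ∀ n, ZMod (N n) → ℤ × ℤ} {S : ℕ → Finset (ℤ × ℤ)} (h : Approx Φ δ N k p S) :
    ∃ C : ℝ, ∀ᶠ n in atTop, ((edges (S n)).card : ℝ) ≤ C / δ n ^ 2 := by
  obtain ⟨h1, h2, h3⟩ := h
  obtain ⟨R, hR⟩ := (isCompact_Icc (a := (0 : ℝ)) (b := 2 * Real.pi)).exists_bound_of_continuousOn
    (f := fun t => toC (Φ (circ t)))
    ((continuous_toC.comp (Φ.continuous.comp continuous_circ)).continuousOn)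
  have hR0 : 0 ≤ R := (norm_nonneg _).trans (hR 0 ⟨le_rfl, by positivity⟩)
  refine ⟨4 * (2 * (R + 1) + 1) ^ 2, ?_⟩
  filter_upwards [h3 1 one_pos, h2.eventually (gt_mem_nhds (zero_lt_one (α := ℝ)))] with n hn hδ1
  obtain ⟨s, hs, hs0, -, hsN, hd⟩ := hn
  obtain ⟨hδ, hk, hkN, hp, hE⟩ := h1 n
  have : NeZero (N n) := ⟨by omega⟩
  have hv : ∀ i : ZMod (N n), ‖(δ n : ℂ) * pt (p n i)‖ ≤ R + 1 := by
    intro i
    have h4 := hd i.val (ZMod.val_lt i) (s i.val) ⟨le_rfl, hs (Nat.le_succ _)⟩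
    rw [ZMod.natCast_zmod_val] at h4
    have h5 := hR (s i.val) ⟨by rw [← hs0]; exact hs (Nat.zero_le _), by
      rw [← hsN]; exact hs (ZMod.val_lt i).le⟩
    rw [dist_eq_norm] at h4
    calc ‖(δ n : ℂ) * pt (p n i)‖ = ‖((δ n : ℂ) * pt (p n i) - toC (Φ (circ (s i.val)))) +
          toC (Φ (circ (s i.val)))‖ := by rw [sub_add_cancel]
      _ ≤ ‖(δ n : ℂ) * pt (p n i) - toC (Φ (circ (s i.val)))‖ + ‖toC (Φ (circ (s i.val)))‖ :=
          norm_add_le _ _
      _ ≤ R + 1 := by linarith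
  set B : ℤ := ⌊(R + 1) / δ n⌋ with hB
  have hB0 : 0 ≤ B := Int.floor_nonneg.2 (by positivity)
  have hBi : ∀ i, |(p n i).1| ≤ B ∧ |(p n i).2| ≤ B := by
    intro i
    have h4 := hv i
    rw [norm_mul, Complex.norm_real, Real.norm_of_nonneg hδ.le] at h4
    have h5 : |((p n i).1 : ℝ)| ≤ ‖pt (p n i)‖ := Complex.abs_re_le_norm (pt (p n i))
    have h6 : |((p n i).2 : ℝ)| ≤ ‖pt (p n i)‖ := Complex.abs_im_le_norm (pt (p n i))
    have h7 : ‖pt (p n i)‖ ≤ (R + 1) / δ n := by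
      rw [le_div_iff₀ hδ, mul_comm]
      exact h4
    constructor
    · rw [hB, Int.le_floor, Int.cast_abs]
      exact h5.trans h7
    · rw [hB, Int.le_floor, Int.cast_abs]
      exact h6.trans h7
  have hbox := box hE hBi
  have hsub : S n ⊆ Finset.Icc (-B) B ×ˢ Finset.Icc (-B) B := by
    intro f hf
    rw [mem_product, Finset.mem_Icc, Finset.mem_Icc]
    exact ⟨abs_le.1 (hbox f hf).1, abs_le.1 (hbox f hf).2⟩
  have hcard : ((S n).card : ℝ) ≤ (2 * B + 1) ^ 2 := by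
    have h4 := card_le_card hsub
    rw [card_product, Int.card_Icc] at h4
    have h5 : (((B + 1 - -B).toNat : ℕ) : ℝ) = 2 * B + 1 := by
      have h6 : (((B + 1 - -B).toNat : ℕ) : ℤ) = 2 * B + 1 := by
        rw [Int.toNat_of_nonneg (by omega)]
        ring
      exact_mod_cast h6
    calc ((S n).card : ℝ) ≤ (((B + 1 - -B).toNat * (B + 1 - -B).toNat : ℕ) : ℝ) := by
          exact_mod_cast h4
      _ = (2 * B + 1) ^ 2 := by
          rw [Nat.cast_mul, h5]
          ring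
  have hBR : (B : ℝ) ≤ (R + 1) / δ n := Int.floor_le _
  have hBR0 : (0 : ℝ) ≤ B := by exact_mod_cast hB0
  calc ((edges (S n)).card : ℝ) ≤ 4 * (S n).card := by exact_mod_cast card_edges_le (S n)
    _ ≤ 4 * (2 * B + 1) ^ 2 := by linarith
    _ ≤ 4 * ((2 * (R + 1) + 1) / δ n) ^ 2 := by
        have h8 : 2 * (B : ℝ) + 1 ≤ (2 * (R + 1) + 1) / δ n := by
          have h9 : 1 ≤ 1 / δ n := by
            rw [le_div_iff₀ hδ]
            linarith
          have h10 : (2 * (R + 1) + 1) / δ n = 2 * ((R + 1) / δ n) + 1 / δ n := by ring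
          rw [h10]
          linarith
        have h11 := pow_le_pow_left₀ (by linarith : (0 : ℝ) ≤ 2 * B + 1) h8 2
        linarith
    _ = 4 * (2 * (R + 1) + 1) ^ 2 / δ n ^ 2 := by
        rw [div_pow]
        ring

/-- The approximations of the question, with `q n - 1 = o(δ n)`. -/
theorem seq_mesh {Φ : (ℝ × ℝ) ≃ₜ (ℝ × ℝ)} {δ : ℕ → ℝ} {N k : ℕ → ℕ}
    {p : ∀ n, ZMod (N n) → ℤ × ℤ} {S : ℕ → Finset (ℤ × ℤ)} (h : Approx Φ δ N k p S)
    {q : ℕ → ℝ} (hq : ∀ n, 0 < q n) (hqδ : Tendsto (fun n => (q n - 1) / δ n) atTop (𝓝 0))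
    {F : ℕ → Finset (Sym2 (ℤ × ℤ)) → ℝ} {M : ℝ} (hF : ∀ n A, |F n A| ≤ M) :
    Tendsto (fun n => mean (q n) (p n) (k n) (S n) (F n) -
      mean 1 (p n) (k n) (S n) (F n)) atTop (𝓝 0) := by
  have hM : 0 ≤ M := (abs_nonneg _).trans (hF 0 ∅)
  obtain ⟨C, hC⟩ := card_approx h
  have h1 : Tendsto (fun n => ((edges (S n)).card : ℝ) * (q n - 1) ^ 2) atTop (𝓝 0) := by
    have h2 : Tendsto (fun n => C * ((q n - 1) / δ n) ^ 2) atTop (𝓝 0) := by
      simpa using (hqδ.pow 2).const_mul C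
    refine tendsto_of_tendsto_of_tendsto_of_le_of_le' tendsto_const_nhds h2 ?_ ?_
    · exact Eventually.of_forall fun n => by positivity
    · filter_upwards [hC] with n hn
      calc ((edges (S n)).card : ℝ) * (q n - 1) ^ 2 ≤ C / δ n ^ 2 * (q n - 1) ^ 2 :=
            mul_le_mul_of_nonneg_right hn (sq_nonneg _)
        _ = C * ((q n - 1) / δ n) ^ 2 := by ring
  have h3 := tendsto_rate hq h1
  refine squeeze_zero_norm (fun n => ?_) (a := fun n => M * rate (q n) (edges (S n)).card) ?_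
  · rw [Real.norm_eq_abs]
    exact dep_abs (hq n) (p n) (k n) (S n) (Dep.all _ _) hM fun A _ => hF n A
  · simpa using h3.const_mul M

end Vale.Agent.P167.R3.H713
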