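import Vale.Agent.P167.R3.H713.Path

/-!
The whole interface.
-/

namespace Vale.Agent.P167.R3.H713

open Finset Vale.Agent.P167.Final

/-! ### The expectation -/

theorem mean_add (q : ℝ) {n : ℕ} (p : ZMod n → ℤ × ℤ) (k : ℕ) (S : Finset (ℤ × ℤ))
    (F G : Finset (Sym2 (ℤ × ℤ)) → ℝ) :
    mean q p k S (fun A => F A + G A) = mean q p k S F + mean q p k S G := by
  rw [mean, mean, mean, ← add_div, ← sum_add_distrib]
  congr 1
  exact sum_congr rfl fun A _ => by ring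

theorem sum_weight_pos {q : ℝ} (hq : 0 < q) {n : ℕ} (p : ZMod n → ℤ × ℤ) (k : ℕ)
    (S : Finset (ℤ × ℤ)) : 0 < ∑ A ∈ (edges S).powerset, weight q p k S A :=
  sum_pos (fun A hA => (weight_flip hq p k S).1 A (mem_powerset.1 hA)) ⟨∅, empty_mem_powerset _⟩

theorem mean_mono {q : ℝ} (hq : 0 < q) {n : ℕ} (p : ZMod n → ℤ × ℤ) (k : ℕ)
    (S : Finset (ℤ × ℤ)) {F G : Finset (Sym2 (ℤ × ℤ)) → ℝ} (h : ∀ A ⊆ edges S, F A ≤ G A) :
    mean q p k S F ≤ mean q p k S G := by
  rw [mean, mean]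
  refine div_le_div_of_nonneg_right (sum_le_sum fun A hA => ?_) (sum_weight_pos hq p k S).le
  exact mul_le_mul_of_nonneg_left (h A (mem_powerset.1 hA))
    ((weight_flip hq p k S).1 A (mem_powerset.1 hA)).le

theorem mean_const {q : ℝ} (hq : 0 < q) {n : ℕ} (p : ZMod n → ℤ × ℤ) (k : ℕ)
    (S : Finset (ℤ × ℤ)) (M : ℝ) : mean q p k S (fun _ => M) = M := by
  rw [mean, ← sum_mul, mul_div_assoc, mul_comm]
  have := (sum_weight_pos hq p k S).ne'
  field_simp

theorem mean_smul (q : ℝ) {n : ℕ} (p : ZMod n → ℤ × ℤ) (k : ℕ)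
    (S : Finset (ℤ × ℤ)) (M : ℝ) (F : Finset (Sym2 (ℤ × ℤ)) → ℝ) :
    mean q p k S (fun A => M * F A) = M * mean q p k S F := by
  rw [mean, mean, ← mul_div_assoc, mul_sum]
  congr 1
  exact sum_congr rfl fun A _ => by ring

theorem mean_neg (q : ℝ) {n : ℕ} (p : ZMod n → ℤ × ℤ) (k : ℕ)
    (S : Finset (ℤ × ℤ)) (F : Finset (Sym2 (ℤ × ℤ)) → ℝ) :
    mean q p k S (fun A => - F A) = - mean q p k S F := by
  have h := mean_smul q p k S (-1) F
  simpa using h

theorem abs_mean_le {q : ℝ} (hq : 0 < q) {n : ℕ} (p : ZMod n → ℤ × ℤ) (k : ℕ)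
    (S : Finset (ℤ × ℤ)) {F G : Finset (Sym2 (ℤ × ℤ)) → ℝ} (h : ∀ A ⊆ edges S, |F A| ≤ G A) :
    |mean q p k S F| ≤ mean q p k S G := by
  rw [abs_le]
  constructor
  · rw [← mean_neg]
    exact mean_mono hq p k S fun A hA => (abs_le.1 (h A hA)).1
  · exact mean_mono hq p k S fun A hA => (abs_le.1 (h A hA)).2

/-- The rate. -/
noncomputable def rate (q : ℝ) (m : ℕ) : ℝ := √((1 + ((√q - 1) / (√q + 1)) ^ 2) ^ m - 1)

theorem rate_sq (q : ℝ) (m : ℕ) :
    rate q m ^ 2 = (1 + ((√q - 1) / (√q + 1)) ^ 2) ^ m - 1 := by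
  rw [rate, Real.sq_sqrt]
  have h : 1 ≤ 1 + ((√q - 1) / (√q + 1)) ^ 2 := by
    have := sq_nonneg ((√q - 1) / (√q + 1))
    linarith
  have := one_le_pow₀ h (n := m)
  linarith

theorem rate_nonneg (q : ℝ) (m : ℕ) : 0 ≤ rate q m := Real.sqrt_nonneg _

/-- A function computed by a decision tree. -/
theorem dep_abs {q : ℝ} (hq : 0 < q) {n : ℕ} (p : ZMod n → ℤ × ℤ) (k : ℕ)
    (S : Finset (ℤ × ℤ)) {m : ℕ} {g : Finset (Sym2 (ℤ × ℤ)) → ℝ} (hg : Dep m (edges S) g)
    {M : ℝ} (hM : 0 ≤ M) (hgM : ∀ A ⊆ edges S, |g A| ≤ M) :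
    |mean q p k S g - mean 1 p k S g| ≤ M * rate q m := by
  have h := mean_dep hq p k S hg
  rw [← rate_sq] at h
  have h1 : mean 1 p k S (fun A => g A ^ 2) ≤ M ^ 2 := by
    rw [← mean_const one_pos p k S (M ^ 2)]
    refine mean_mono one_pos p k S fun A hA => ?_
    rw [← sq_abs]
    exact pow_le_pow_left₀ (abs_nonneg _) (hgM A hA) 2
  have h2 : (mean q p k S g - mean 1 p k S g) ^ 2 ≤ (M * rate q m) ^ 2 := by
    refine h.trans ?_
    rw [mul_pow, mul_comm (M ^ 2)]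
    refine mul_le_mul_of_nonneg_left ?_ (sq_nonneg _)
    have := sq_nonneg (mean 1 p k S g)
    linarith
  exact abs_le_of_sq_le_sq h2 (mul_nonneg hM (rate_nonneg q m))

/-- A function of the first `m` steps of the path. -/
theorem steps_abs {q : ℝ} (hq : 0 < q) {n : ℕ} (p : ZMod n → ℤ × ℤ) (k : ℕ)
    (S : Finset (ℤ × ℤ)) (m : ℕ) (c : Medial) {g : Finset (Sym2 (ℤ × ℤ)) → ℝ}
    (hg : ∀ A ⊆ edges S, ∀ B ⊆ edges S,
      (∀ j ≤ m, path (wiredOpen p k A) c j = path (wiredOpen p k B) c j) → g A = g B)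
    {M : ℝ} (hM : 0 ≤ M) (hgM : ∀ A ⊆ edges S, |g A| ≤ M) :
    |mean q p k S g - mean 1 p k S g| ≤ M * rate q m := by
  refine dep_abs hq p k S (dep_path m (edges S) (wiredEdges p k) c g
    fun A hA B hB hAB => ?_) hM hgM
  refine hg A hA B hB fun j hj => ?_
  rw [wiredOpen_eq, wiredOpen_eq]
  exact hAB j hj

open Classical in
/-- The probability that the interface has more than `m` steps. -/
noncomputable def probLong (q : ℝ) {n : ℕ} (p : ZMod n → ℤ × ℤ) (k : ℕ) (S : Finset (ℤ × ℤ))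
    (m : ℕ) : ℝ :=
  mean q p k S fun A => if Long p k m A then 1 else 0

/-- **The whole interface.** -/
theorem whole {q : ℝ} (hq : 0 < q) {n : ℕ} (p : ZMod n → ℤ × ℤ) (k : ℕ)
    (S : Finset (ℤ × ℤ)) (δ : ℝ)
    {η : Finset (Sym2 (ℤ × ℤ)) → C(unitInterval, ℂ)}
    (hη : ∀ A ⊆ edges S, IsInterface p k δ A (η A)) {F : C(unitInterval, ℂ) → ℝ} {M : ℝ}
    (hF : ∀ x, |F x| ≤ M) (m : ℕ) :
    |mean q p k S (fun A => F (η A)) - mean 1 p k S (fun A => F (η A))| ≤
      2 * M * (rate q (m + 1) + probLong 1 p k S m) := by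
  classical
  have hM : 0 ≤ M := (abs_nonneg _).trans (hF (η ∅))
  obtain ⟨a, u, ha, hc1, hc2, hu3, hu4, hu5, hu6, hu7⟩ := hη ∅ (empty_subset _)
  set c := u 0 with hc
  have hlong : ∀ A ⊆ edges S, ∀ B ⊆ edges S,
      (∀ j ≤ m + 1, path (wiredOpen p k A) c j = path (wiredOpen p k B) c j) →
      (Long p k m A ↔ Long p k m B) := by
    have key : ∀ A B : Finset (Sym2 (ℤ × ℤ)),
        (∀ j ≤ m + 1, path (wiredOpen p k A) c j = path (wiredOpen p k B) c j) →
        Long p k m A → Long p k m B := by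
      intro A B hAB hA c' hc1' hc2' j hj hj'
      rw [start_unique hc1' hc2' hc1 hc2, ← hAB j hj']
      exact hA c hc1 hc2 j hj hj'
    exact fun A _ B _ hAB => ⟨key A B hAB, key B A fun j hj => (hAB j hj).symm⟩
  set h : Finset (Sym2 (ℤ × ℤ)) → ℝ := fun A => if Long p k m A then 1 else 0 with hh
  set g : Finset (Sym2 (ℤ × ℤ)) → ℝ := fun A => if Long p k m A then 0 else F (η A) with hg
  set r : Finset (Sym2 (ℤ × ℤ)) → ℝ := fun A => if Long p k m A then F (η A) else 0 with hr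
  have h1 : |mean q p k S h - mean 1 p k S h| ≤ 1 * rate q (m + 1) := by
    refine steps_abs hq p k S (m + 1) c (fun A hA B hB hAB => ?_) zero_le_one fun A _ => ?_
    · simp only [hh, hlong A hA B hB hAB]
    · simp only [hh]
      split_ifs <;> simp
  have h2 : |mean q p k S g - mean 1 p k S g| ≤ M * rate q (m + 1) := by
    refine steps_abs hq p k S (m + 1) c (fun A hA B hB hAB => ?_) hM fun A _ => ?_
    · by_cases hl : Long p k m A
      · simp only [hg, if_pos hl, if_pos ((hlong A hA B hB hAB).1 hl)]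
      · simp only [hg, if_neg hl, if_neg (mt (hlong A hA B hB hAB).2 hl)]
        rw [interface_eq hc1 hc2 (hη A hA) (hη B hB) hAB hl]
    · simp only [hg]
      split_ifs
      · simpa using hM
      · exact hF _
  have h3 : ∀ q' : ℝ, 0 < q' → |mean q' p k S r| ≤ M * mean q' p k S h := by
    intro q' hq'
    rw [← mean_smul]
    refine abs_mean_le hq' p k S fun A _ => ?_
    simp only [hr, hh]
    split_ifs
    · simpa using hF (η A)
    · simp
  have h4 : ∀ q' : ℝ, mean q' p k S (fun A => F (η A)) = mean q' p k S g + mean q' p k S r := by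
    intro q'
    rw [← mean_add]
    congr 1
    funext A
    simp only [hg, hr]
    split_ifs <;> simp
  have h5 : probLong 1 p k S m = mean 1 p k S h := rfl
  have h6 := h3 q hq
  have h7 := h3 1 one_pos
  rw [h4, h4, h5]
  rw [abs_le] at h1 h2 h6 h7 ⊢
  have h8 : M * mean q p k S h ≤ M * (mean 1 p k S h + rate q (m + 1)) :=
    mul_le_mul_of_nonneg_left (by linarith) hM
  constructor <;> nlinarith

end Vale.Agent.P167.R3.H713
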